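import Vale.Agent.P252.MathlibUsed
import Vale.Agent.P252.Defs
import Vale.Agent.P252.BernsteinDefs
import Vale.Agent.P252.AffineDefs
import Vale.Agent.P252.Bdl.B1
import Vale.Agent.P252.H47.Main

open scoped ContDiff
open Vale.Agent.P252

namespace Vale.Agent.Results.P252.HalfSpace

theorem result (n : ℕ) (hn : 10 ≤ n) :
    ((∃ u : EuclideanSpace ℝ (Fin n) → ℝ, ContDiff ℝ ∞ u ∧ (∀ x, (hess u x).PosDef) ∧
      AffineMaximalOn Set.univ u ∧ EuclideanComplete Set.univ u ∧ AffineComplete Set.univ u ∧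
      ¬ IsQuadratic u) ∧ ¬ AffineBernstein n) ∧
    ∃ (i : Fin n) (Ω : Set (EuclideanSpace ℝ (Fin n))) (v : EuclideanSpace ℝ (Fin n) → ℝ),
      Ω = {x | 0 < x i} ∧ Ω.Nonempty ∧ IsOpen Ω ∧ Convex ℝ Ω ∧ Ω ≠ Set.univ ∧
      ContDiffOn ℝ ∞ v Ω ∧ (∀ x ∈ Ω, (hess v x).PosDef) ∧ AffineMaximalOn Ω v ∧
      EuclideanComplete Ω v ∧ AffineComplete Ω v := by
  obtain ⟨p, rfl⟩ : ∃ p, n = p + 1 := ⟨n - 1, by omega⟩
  obtain ⟨u, h1, h2, h3, h4, h5⟩ := exists_affineComplete p (by omega)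
  obtain ⟨v, k1, k2, k3, k4, k5⟩ := exists_half p (by omega)
  refine ⟨⟨⟨u, h1, h2, h3, euclideanComplete_univ u h1, h4, h5⟩,
    not_affineBernstein u h1 h2 h3 h5⟩, 0, {x | 0 < x 0}, v, rfl, ?_, isOpen_half, convex_half,
    ?_, k1, k2, k3, k4, k5⟩
  · exact ⟨EuclideanSpace.single 0 1, by simp⟩
  · intro h
    have : (0 : EuclideanSpace ℝ (Fin (p + 1))) ∈ {x : EuclideanSpace ℝ (Fin (p + 1)) | 0 < x 0} :=
      h ▸ Set.mem_univ _
    simp at this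

end Vale.Agent.Results.P252.HalfSpace
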