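import Vale.Agent.P252.MathlibUsed
import Vale.Agent.P252.Defs
import Vale.Agent.P252.BernsteinDefs
import Vale.Agent.P252.AffineDefs
import Vale.Agent.P252.Bdl.B1
import Vale.Agent.P252.H47.Defs
import Vale.Agent.P252.H47.Main
import Vale.Agent.P252.H47.Sharp

open scoped ContDiff
open Vale.Agent.P252

namespace Vale.Agent.Results.P252.SharpDimension

/-- (1) For `n ≥ 10` the affine Bernstein assertion is false, with an entire, Euclidean and affine
complete, non-quadratic example. (2) For `n ≥ 10` there is also such a complete graph over an open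
half-space. (3) For every `n ≥ 3`: a Euclidean complete, smooth, locally uniformly convex affine
maximal graph over an open convex domain, lying in `z > |x_0|` and invariant under `O(n-1)` acting
on `x' = (x_1, ..., x_{n-1})` and the boosts of the `(x_0, z)`-plane, exists if and only if
`n ≥ 10`. -/
theorem result :
    (∀ n : ℕ, 10 ≤ n →
      (∃ u : EuclideanSpace ℝ (Fin n) → ℝ, ContDiff ℝ ∞ u ∧ (∀ x, (hess u x).PosDef) ∧
        AffineMaximalOn Set.univ u ∧ EuclideanComplete Set.univ u ∧ AffineComplete Set.univ u ∧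
        ¬ IsQuadratic u) ∧ ¬ AffineBernstein n) ∧
    (∀ n : ℕ, 10 ≤ n →
      ∃ (i : Fin n) (Ω : Set (EuclideanSpace ℝ (Fin n))) (v : EuclideanSpace ℝ (Fin n) → ℝ),
        Ω = {x | 0 < x i} ∧ Ω.Nonempty ∧ IsOpen Ω ∧ Convex ℝ Ω ∧ Ω ≠ Set.univ ∧
        ContDiffOn ℝ ∞ v Ω ∧ (∀ x ∈ Ω, (hess v x).PosDef) ∧ AffineMaximalOn Ω v ∧
        EuclideanComplete Ω v ∧ AffineComplete Ω v) ∧
    (∀ (n : ℕ) [NeZero n], 3 ≤ n →
      ((∃ (Ω : Set (EuclideanSpace ℝ (Fin n))) (u : EuclideanSpace ℝ (Fin n) → ℝ),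
        Ω.Nonempty ∧ IsOpen Ω ∧ Convex ℝ Ω ∧ ContDiffOn ℝ ∞ u Ω ∧ (∀ x ∈ Ω, (hess u x).PosDef) ∧
        AffineMaximalOn Ω u ∧ EuclideanComplete Ω u ∧ BoostSymmetric Ω u) ↔ 10 ≤ n)) := by
  refine ⟨fun n hn => ?_, fun n hn => ?_, fun n _ hn => ⟨?_, fun h10 => ?_⟩⟩
  · obtain ⟨p, rfl⟩ : ∃ p, n = p + 1 := ⟨n - 1, by omega⟩
    obtain ⟨u, h1, h2, h3, h4, h5⟩ := exists_affineComplete p (by omega)
    exact ⟨⟨u, h1, h2, h3, euclideanComplete_univ u h1, h4, h5⟩,
      not_affineBernstein u h1 h2 h3 h5⟩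
  · obtain ⟨p, rfl⟩ : ∃ p, n = p + 1 := ⟨n - 1, by omega⟩
    obtain ⟨v, k1, k2, k3, k4, k5⟩ := exists_half p (by omega)
    refine ⟨0, {x | 0 < x 0}, v, rfl, ?_, isOpen_half, convex_half, ?_, k1, k2, k3, k4, k5⟩
    · exact ⟨EuclideanSpace.single 0 1, by simp⟩
    · intro h
      have : (0 : EuclideanSpace ℝ (Fin (p + 1))) ∈
          {x : EuclideanSpace ℝ (Fin (p + 1)) | 0 < x 0} := h ▸ Set.mem_univ _
      simp at this
  · rintro ⟨Ω, u, h1, h2, h3, h4, h5, h6, h7, h8⟩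
    obtain ⟨p, rfl⟩ : ∃ p, n = p + 1 := ⟨n - 1, by omega⟩
    by_contra hlt
    exact rigidity (by omega) (by omega) h1 h2 h3 h4 h5 h6 h8 h7
  · obtain ⟨p, rfl⟩ : ∃ p, n = p + 1 := ⟨n - 1, by omega⟩
    obtain ⟨D⟩ := exists_odeData p (by omega)
    exact ⟨Set.univ, uu D, Set.univ_nonempty, isOpen_univ, convex_univ,
      (contDiff_uu D).contDiffOn, fun x _ => posDef_uu D x, fun x _ => am_uu D (by omega) x,
      euclideanComplete_univ _ (contDiff_uu D), symmetric_uu D⟩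

end Vale.Agent.Results.P252.SharpDimension
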